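import Vale.Agent.P261Z.S.Test

/-!
# P261Z, block L: the fixed module `N₀`, lattices, vertices and colours

`N₀(K) = W(K)^(E ⊕ Fin h)` with `V ε = ε`, `V^h e = p e`; `V v = V0 *ᵥ σ⁻¹ v`.
-/

noncomputable section

open Matrix

namespace P261

variable {p : ℕ} [hp : Fact p.Prime] {k : Type} [Field k]

section mat

variable (p) (E : Type) [Fintype E] [DecidableEq E] (h : ℕ) (A : Type) [CommRing A]

/-- the matrix of `V` on `N₀` -/
def V0 : Matrix (E ⊕ Fin h) (E ⊕ Fin h) A :=
  fromBlocks 1 0 0 (Matrix.of fun i j : Fin h =>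
    if (i : ℕ) = j + 1 then 1 else if (i : ℕ) = 0 ∧ (j : ℕ) + 1 = h then (p : A) else 0)

/-- the matrix `p V0⁻¹` -/
def B0 : Matrix (E ⊕ Fin h) (E ⊕ Fin h) A :=
  fromBlocks ((p : A) • 1) 0 0 (Matrix.of fun i j : Fin h =>
    if (j : ℕ) = i + 1 then (p : A) else if (j : ℕ) = 0 ∧ (i : ℕ) + 1 = h then 1 else 0)

/-- the automorphism of `N₀` which multiplies the `ε` by `s` -/
def Th (s : A) : Matrix (E ⊕ Fin h) (E ⊕ Fin h) A := fromBlocks (s • 1) 0 0 1

variable {p E}

/-- the frame `ε, V^j (e + a ε)` -/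
def Ua {K : Type} [CommRing K] [Pf p K] (a : E → WittVector p K) :
    Matrix (E ⊕ Fin h) (E ⊕ Fin h) (WittVector p K) :=
  fromBlocks 1 (Matrix.of fun i (j : Fin h) => (si p K ^ (j : ℕ)) (a i)) 0 1

end mat

/-- all entries have digits in the step `t` -/
def Fil.MW {K : Type} [CommRing K] (F : Fil p K) (t : ℝ) {I J : Type}
    (M : Matrix I J (WittVector p K)) : Prop := ∀ i j, M i j ∈ F.WL t

theorem Fil.MW.map {T T' : FP p k} (φ : T.Hom T') {t : ℝ} {I J : Type}
    {M : Matrix I J T.W} (h : T.F.MW t M) : T'.F.MW t (M.map φ.w) := fun i j =>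
  Fil.mem_WL'.2 fun J => Fil.WT_map φ.maps (Fil.mem_WL'.1 (h i j) J)

theorem FP.Hom.wl {T T' : FP p k} (φ : T.Hom T') {t : ℝ} {x : T.W} (h : x ∈ T.F.WL t) :
    φ.w x ∈ T'.F.WL t := Fil.mem_WL'.2 fun J => Fil.WT_map φ.maps (Fil.mem_WL'.1 h J)

/-- subspaces of `F_p ^ E` -/
abbrev Sbs (p : ℕ) (E : Type) : Type := Submodule (ZMod p) (E → ZMod p)

/-- vertices -/
@[ext] structure LV (p : ℕ) [Fact p.Prime] (E : Type) (h : ℕ) (K : Type) [CommRing K] where
  /-- the lift `e + a ε` -/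
  a : E → WittVector p K
  /-- is there a lattice -/
  lat : Bool
  /-- a basis of the lattice -/
  μ : Matrix (E ⊕ Fin h) (E ⊕ Fin h) (WittVector p K)
  /-- the inverse matrix -/
  ν : Matrix (E ⊕ Fin h) (E ⊕ Fin h) (WittVector p K)
  /-- linear forms -/
  φ : Sbs p E → (E → ZMod p) → E ⊕ Fin h → K
  /-- an index -/
  ix : ℕ

variable {E : Type} [Fintype E] [DecidableEq E] {h : ℕ}

namespace LV

/-- change of rings -/
def map {K L : Type} [CommRing K] [CommRing L] (f : K →+* L) (v : LV p E h K) : LV p E h L where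
  a i := wm p f (v.a i)
  lat := v.lat
  μ := v.μ.map (wm p f)
  ν := v.ν.map (wm p f)
  φ U l i := f (v.φ U l i)
  ix := v.ix

variable {K : Type} [CommRing K]

/-- the coordinates of `ε_l` modulo `p` in the basis of the lattice -/
def eb (v : LV p E h K) (l : E → ZMod p) (i : E ⊕ Fin h) : K :=
  ∑ e, ((l e).val : K) * (v.ν i (Sum.inl e)).coeff 0

variable [Pf p K]

/-- the matrix of `V` in the basis `μ` -/
def mA (v : LV p E h K) : Matrix (E ⊕ Fin h) (E ⊕ Fin h) (WittVector p K) :=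
  v.ν * V0 p E h _ * v.μ.map (si p K)

/-- the matrix `p A⁻¹` -/
def mB (v : LV p E h K) : Matrix (E ⊕ Fin h) (E ⊕ Fin h) (WittVector p K) :=
  v.ν.map (si p K) * B0 p E h _ * v.μ

/-- `x = D a` has weight at most one -/
def IsA (F : Fil p K) (v : LV p E h K) : Prop := ∀ i, Dop p K h (v.a i) ∈ F.WL 1

/-- `μ` is a basis of a lattice in the bounded module given by `a` -/
structure IsZ (F : Fil p K) (v : LV p E h K) : Prop where
  isA : v.IsA F
  lat : v.lat = true
  inv : v.μ * v.ν = 1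
  hA : F.MW 0 v.mA
  hB : F.MW 0 v.mB
  b1 : F.MW 3 (Ua h (-v.a) * v.μ)
  b2 : F.MW 3 (v.ν * Ua h v.a)

/-- the linear forms show that the lattice is outside of the loci `Z[U]`, `U ∈ 𝒰` -/
structure IsJ (F : Fil p K) (𝒰 : Set (Sbs p E)) (v : LV p E h K) : Prop where
  mem : ∀ U l i, v.φ U l i ∈ F.F 0
  zero : ∀ U l i, U ∉ 𝒰 ∨ l ∉ U → v.φ U l i = 0
  one : ∀ U ∈ 𝒰, ∑ l, ∑ i, v.φ U l i * v.eb l i = 1

/-- compatibility of two vertices -/
structure Ok (F : Fil p K) (v v' : LV p E h K) : Prop where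
  a : ∀ i, v.a i - v'.a i ∈ F.WL 1
  lat : v.lat = true → v'.lat = true → F.MW 0 (v.ν * v'.μ)

/-- the action of a natural number `s` which is congruent to one modulo `p` -/
def sc (s : ℕ) (v : LV p E h K) : LV p E h K where
  a i := (s : WittVector p K) * v.a i
  lat := v.lat
  μ := Th E h _ (s : WittVector p K) * v.μ
  ν := v.ν * Th E h _ (Ring.inverse (s : WittVector p K))
  φ := v.φ
  ix := v.ix

end LV

variable (p k E h) in
/-- the functor of vertices -/
def LVF : PF p k where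
  obj T := LV p E h T.K
  map φ v := v.map φ.r
  map_id _ _ := rfl
  map_comp _ _ _ := rfl

section maps

variable {T T' : FP p k} (φ : T.Hom T') {v v' : LV p E h T.K}

omit [Fintype E] in
theorem V0_map {A B : Type} [CommRing A] [CommRing B] (f : A →+* B) :
    (V0 p E h A).map f = V0 p E h B := by
  ext (i | i) (j | j) <;>
    simp [V0, Matrix.one_apply, apply_ite f]

omit [Fintype E] in
theorem B0_map {A B : Type} [CommRing A] [CommRing B] (f : A →+* B) :
    (B0 p E h A).map f = B0 p E h B := by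
  ext (i | i) (j | j) <;>
    simp [B0, Matrix.one_apply, apply_ite f]

omit [Fintype E] in
theorem Ua_map (a : E → T.W) : (Ua h a).map φ.w = Ua h fun i => φ.w (a i) := by
  refine Matrix.ext fun i j => ?_
  rcases i with i | i <;> rcases j with j | j
  · simp [Ua, Matrix.one_apply, apply_ite φ.w]
  · exact wm_si_pow φ.r _ _
  · exact map_zero φ.w
  · simp [Ua, Matrix.one_apply, apply_ite φ.w]

theorem map_si_map {I J : Type} (M : Matrix I J T.W) :
    (M.map (si p T.K)).map φ.w = (M.map φ.w).map (si p T'.K) := by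
  exact Matrix.ext fun i j => wm_si φ.r _

theorem LV.mA_map : (v.map φ.r).mA = v.mA.map φ.w := by
  rw [LV.mA, LV.mA, Matrix.map_mul, Matrix.map_mul, V0_map, map_si_map]
  rfl

theorem LV.mB_map : (v.map φ.r).mB = v.mB.map φ.w := by
  rw [LV.mB, LV.mB, Matrix.map_mul, Matrix.map_mul, B0_map, map_si_map]
  rfl

omit [DecidableEq E] in
theorem LV.eb_map (l : E → ZMod p) (i : E ⊕ Fin h) : (v.map φ.r).eb l i = φ.r (v.eb l i) := by
  simp only [LV.eb, map_sum, map_mul, map_natCast]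
  rfl

omit [Fintype E] [DecidableEq E] in
theorem LV.IsA.map (hv : v.IsA T.F) : (v.map φ.r).IsA T'.F := fun i => by
  have := φ.wl (hv i)
  rwa [wm_Dop] at this

theorem LV.IsZ.map (hv : v.IsZ T.F) : (v.map φ.r).IsZ T'.F where
  isA := hv.isA.map φ
  lat := hv.lat
  inv := by
    have := congrArg (fun M => M.map φ.w) hv.inv
    simp only [Matrix.map_mul, Matrix.map_one φ.w φ.w.map_zero φ.w.map_one] at this
    exact this
  hA := by
    rw [LV.mA_map]
    exact hv.hA.map φ
  hB := by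
    rw [LV.mB_map]
    exact hv.hB.map φ
  b1 := by
    have := hv.b1.map φ
    rw [Matrix.map_mul, Ua_map] at this
    have e : (fun i => φ.w ((-v.a) i)) = -(v.map φ.r).a := funext fun i => map_neg φ.w _
    rwa [e] at this
  b2 := by
    have := hv.b2.map φ
    rwa [Matrix.map_mul, Ua_map] at this

theorem LV.IsJ.map {𝒰 : Set (Sbs p E)} (hv : v.IsJ T.F 𝒰) : (v.map φ.r).IsJ T'.F 𝒰 where
  mem U l i := φ.mem _ _ (hv.mem U l i)
  zero U l i hU := by
    show φ.r (v.φ U l i) = 0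
    rw [hv.zero U l i hU, map_zero]
  one U hU := by
    have := congrArg φ.r (hv.one U hU)
    simp only [map_sum, map_mul, map_one] at this
    simp only [LV.eb_map]
    exact this

omit [DecidableEq E] in
theorem LV.Ok.map (hv : v.Ok T.F v') : (v.map φ.r).Ok T'.F (v'.map φ.r) where
  a i := by
    have := φ.wl (hv.a i)
    rwa [map_sub] at this
  lat h1 h2 := by
    have := (hv.lat h1 h2).map φ
    rwa [Matrix.map_mul] at this

end maps

variable (p k E h) in
/-- the system of lattices over a base functor -/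
def LS (X : PF p k) : Sys p k where
  X := X
  V := LVF p k E h
  ok1 _ _ := True
  ok2 {T} v v' := LV.Ok T.F v v'
  ok1_map _ _ _ _ := trivial
  ok2_map φ _ _ hv := hv.map φ

variable (p k E h) in
/-- the colour `A` -/
def cA : Col (LVF p k E h) where
  P {T} v := LV.IsA T.F v ∧ v.lat = false ∧ v.μ = 0 ∧ v.ν = 0 ∧ v.φ = 0 ∧ v.ix = 0
  map φ v := fun ⟨h1, h2, h3, h4, h5, h6⟩ => ⟨h1.map φ, h2, by
    show (LV.μ v).map _ = 0
    rw [h3, Matrix.map_zero _ (map_zero _)], by
    show (LV.ν v).map _ = 0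
    rw [h4, Matrix.map_zero _ (map_zero _)], by
    funext U l i
    show φ.r (LV.φ v U l i) = 0
    rw [h5]
    exact map_zero _, h6⟩

variable (k h) in
/-- the colour `J 𝒰`; the colour `Z` is `J ∅` -/
def cJ (𝒰 : Set (Sbs p E)) : Col (LVF p k E h) where
  P {T} v := LV.IsZ T.F v ∧ LV.IsJ T.F 𝒰 v ∧ v.ix = 0
  map φ _ := fun ⟨h1, h2, h3⟩ => ⟨h1.map φ, h2.map φ, h3⟩

variable (p k E h) in
/-- the colour `Z` -/
abbrev cZ : Col (LVF p k E h) := cJ k h ∅

end P261
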