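import Vale.Agent.P261Z.L.Act

/-!
# P261Z, block L: the statements of the blocks H, B, C1
-/

noncomputable section

namespace P261

variable {p : ℕ} [hp : Fact p.Prime] {k : Type} [Field k]

/-- colours which are stable under the scalars -/
structure SC (p : ℕ) [Fact p.Prime] (k : Type) [Field k] (E : Type) [Fintype E] [DecidableEq E]
    (h : ℕ) : Type 1 where
  /-- the colour -/
  c : Col (LVF p k E h)
  sc : ∀ s, s % p = 1 → ∀ (T : FP p k) (v : LV p E h T.K), c.P v → c.P (v.sc s)

section

variable {E : Type} [Fintype E] [DecidableEq E] {h : ℕ}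

variable (p k E h) in
/-- the colour `A` -/
def sA : SC p k E h := ⟨cA p k E h, fun s hs T v hv => by
  have := stab_cA (PF.base p k k) s T v hv
  exact (LV.sc'_eq (v := v) hs) ▸ this⟩

variable (k h) in
/-- the colour `J 𝒰` -/
def sJ (𝒰 : Set (Sbs p E)) : SC p k E h :=
  ⟨cJ k h 𝒰, fun _ hs _ _ ⟨h1, h2, h3⟩ => ⟨h1.sc hs, h2.sc hs, h3⟩⟩

variable (p k E h) in
/-- the colour `Z` -/
abbrev sZ : SC p k E h := sJ k h ∅

/-- the filtered complex with operators of a family of colours -/
@[reducible] def LFA (X : PF p k) {κ : Type} (P : κ → SC p k E h) (md : κ → Mode) : FA.{1} p k :=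
  (LS p k E h X).fa (lact p k E h X) (fun c => (P c).c) md fun c => stab_of_sc (P c).sc

/-- one direction -/
abbrev LF1 (X : PF p k) (c : SC p k E h) (m : Mode) : FA.{1} p k :=
  LFA X (fun _ : Unit => c) fun _ => m

/-- two directions -/
abbrev LF2 (X : PF p k) (c c' : SC p k E h) (m m' : Mode) : FA.{1} p k :=
  LFA X (fun b : Bool => bif b then c' else c) fun b => bif b then m' else m

end

variable (p k)

/-- block H: the reduced complex of the colour `A` -/
def StH : Prop := ∀ (E : Type) [Fintype E] [DecidableEq E] (h : ℕ) (B : Type) [CommRing B]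
  [Algebra k B] [Pf p B], 1 ≤ h → (LF1 (PF.base p k B) (sA p k E h) .red).Good (p ^ h)

/-- block B: lattices cover -/
def StB : Prop := ∀ (E : Type) [Fintype E] [DecidableEq E] (h : ℕ) (B : Type) [CommRing B]
  [Algebra k B] [Pf p B], 1 ≤ h → (LF2 (PF.base p k B) (sA p k E h) (sZ p k E h) .on .red).AAc

/-- the reduced complex of the colour `Z` -/
def StZ : Prop := ∀ (E : Type) [Fintype E] [DecidableEq E] (h : ℕ) (B : Type) [CommRing B]
  [Algebra k B] [Pf p B], 1 ≤ h → (LF1 (PF.base p k B) (sZ p k E h) .red).Good (p ^ h)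

/-- the local term along the supersingular locus -/
def StL : Prop := ∀ (E : Type) [Fintype E] [DecidableEq E] [Nonempty E] (h : ℕ) (B : Type)
  [CommRing B] [Algebra k B] [Pf p B], 1 ≤ h →
    (LF2 (PF.base p k B) (sZ p k E h) (sJ k h {⊤}) .on .red).Good (p ^ h)

/-- block S, transfer -/
def StHZ : Prop := StH p k → StB p k → StZ p k

/-- block C1 -/
def StC1 : Prop := StZ p k → StL p k

end P261
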