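import Vale.Agent.P261Z.L.Defs
import Vale.Agent.P261Z.S.Cx

/-!
# P261Z, block L: the scalars act on the system of lattices
-/

set_option linter.unusedSectionVars false

noncomputable section

open Matrix

namespace P261

variable {p : ℕ} [hp : Fact p.Prime] {k : Type} [Field k]
variable {E : Type} [Fintype E] [DecidableEq E] {h : ℕ}

section ring

variable {K L : Type} [CommRing K] [Pf p K] [CommRing L] [Pf p L]

theorem coeff_nat_zero {s : ℕ} (hs : s % p = 1) : (s : WittVector p K).coeff 0 = 1 := by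
  have h1 : (s : WittVector p K).coeff 0 = (s : K) :=
    map_natCast (WittVector.constantCoeff : WittVector p K →+* K) s
  rw [h1, ← Nat.mod_add_div s p, hs]
  push_cast
  rw [Ch.char (p := p) (K := K), zero_mul, add_zero]

theorem isUnit_nat {s : ℕ} (hs : s % p = 1) : IsUnit (s : WittVector p K) :=
  isUnit_of_coeff (by rw [coeff_nat_zero hs]; exact isUnit_one)

theorem nat_mul_inv {s : ℕ} (hs : s % p = 1) :
    (s : WittVector p K) * Ring.inverse (s : WittVector p K) = 1 :=
  Ring.mul_inverse_cancel _ (isUnit_nat hs)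

theorem map_inv_nat {s : ℕ} (hs : s % p = 1) (f : WittVector p K →+* WittVector p L) :
    f (Ring.inverse (s : WittVector p K)) = Ring.inverse (s : WittVector p L) := by
  have h1 := congrArg f (nat_mul_inv (K := K) hs)
  rw [map_mul, map_natCast, map_one] at h1
  exact (isUnit_nat hs).mul_left_cancel (h1.trans (nat_mul_inv hs).symm)

theorem coeff_inv_nat {s : ℕ} (hs : s % p = 1) :
    (Ring.inverse (s : WittVector p K)).coeff 0 = 1 := by
  have h1 := congrArg (fun x => WittVector.coeff x 0) (nat_mul_inv (K := K) hs)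
  simpa only [WittVector.mul_coeff_zero, coeff_nat_zero hs, one_mul, WittVector.one_coeff_zero]
    using h1

theorem nat_mem (F : Fil p K) (s : ℕ) : (s : WittVector p K) ∈ F.WL 0 := by
  simpa using (F.WL 0).nsmul_mem F.WL_one s

theorem inv_nat_mem (F : Fil p K) {s : ℕ} (hs : s % p = 1) :
    Ring.inverse (s : WittVector p K) ∈ F.WL 0 := by
  have : Pf p F.zero := Pf.subring _ fun x hx => F.root (t := 0) (by
    rw [rt_pow, mul_zero]
    exact hx)
  rw [← map_inv_nat hs (wm p F.zero.subtype)]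
  refine Fil.mem_WL.2 fun j => ?_
  rw [mul_zero]
  exact (WittVector.coeff (Ring.inverse (s : WittVector p F.zero)) j).2

end ring

section mat

variable {A B : Type} [CommRing A] [CommRing B]

omit [Fintype E] in
theorem Th_map (f : A →+* B) (s : A) : (Th E h A s).map f = Th E h B (f s) := by
  ext (i | i) (j | j) <;> simp [Th, Matrix.one_apply, apply_ite f]

theorem Th_mul (s t : A) : Th E h A s * Th E h A t = Th E h A (s * t) := by
  simp [Th, fromBlocks_multiply, smul_smul, mul_comm]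

omit [Fintype E] in
theorem Th_one : Th E h A 1 = 1 := by simp [Th]

omit hp in
theorem Th_V0 (s : A) : Th E h A s * V0 p E h A = V0 p E h A * Th E h A s := by
  simp [Th, V0, fromBlocks_multiply]

omit hp in
theorem Th_B0 (s : A) : Th E h A s * B0 p E h A = B0 p E h A * Th E h A s := by
  simp [Th, B0, fromBlocks_multiply, smul_smul, mul_comm]

end mat

section lv

variable {K : Type} [CommRing K] [Pf p K] {F : Fil p K} {v v' : LV p E h K} {s : ℕ}

theorem Th_Ua (s : ℕ) (a : E → WittVector p K) :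
    Th E h _ (s : WittVector p K) * Ua h a =
      Ua h (fun i => (s : WittVector p K) * a i) * Th E h _ (s : WittVector p K) := by
  simp only [Th, Ua, fromBlocks_multiply, Matrix.mul_one, Matrix.mul_zero, Matrix.zero_mul,
    add_zero, zero_add, Matrix.one_mul, Matrix.smul_mul]
  congr 1
  refine Matrix.ext fun i j => ?_
  simp only [Matrix.smul_apply, Matrix.of_apply, smul_eq_mul, map_mul, map_natCast]

theorem Fil.MW.mul {I J M : Type} [Fintype J] {a b : ℝ} {X : Matrix I J (WittVector p K)}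
    {Y : Matrix J M (WittVector p K)} (hX : F.MW a X) (hY : F.MW b Y) : F.MW (a + b) (X * Y) :=
  fun i j => (F.WL (a + b)).sum_mem fun l _ => F.WL_mul (hX i l) (hY l j)

omit [Fintype E] in
theorem Th_mem {x : WittVector p K} (hx : x ∈ F.WL 0) : F.MW 0 (Th E h _ x) := by
  rintro (i | i) (j | j)
  · by_cases e : i = j <;> simp [Th, Matrix.one_apply, e, hx]
  · exact zero_mem _
  · exact zero_mem _
  · by_cases e : i = j <;> simp [Th, Matrix.one_apply, e, F.WL_one]

theorem Th_inv (hs : s % p = 1) : Th E h _ (Ring.inverse (s : WittVector p K)) *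
    Th E h _ (s : WittVector p K) = 1 := by
  rw [Th_mul, mul_comm, nat_mul_inv hs, Th_one]

theorem Th_inv' (hs : s % p = 1) : Th E h _ (s : WittVector p K) *
    Th E h _ (Ring.inverse (s : WittVector p K)) = 1 := by
  rw [Th_mul, nat_mul_inv hs, Th_one]

theorem LV.mA_sc (hs : s % p = 1) : (v.sc s).mA = v.mA := by
  simp only [LV.mA, LV.sc, Matrix.map_mul, Th_map, map_natCast, Matrix.mul_assoc]
  rw [← Matrix.mul_assoc (V0 p E h _), ← Th_V0, Matrix.mul_assoc,
    ← Matrix.mul_assoc (Th E h _ (Ring.inverse _)), Th_inv hs, Matrix.one_mul]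

theorem LV.mB_sc (hs : s % p = 1) : (v.sc s).mB = v.mB := by
  simp only [LV.mB, LV.sc, Matrix.map_mul, Th_map, map_inv_nat hs, Matrix.mul_assoc]
  rw [← Matrix.mul_assoc (B0 p E h _), ← Th_B0, Matrix.mul_assoc,
    ← Matrix.mul_assoc (Th E h _ (Ring.inverse _)), Th_inv hs, Matrix.one_mul]

theorem LV.eb_sc (hs : s % p = 1) (l : E → ZMod p) (i : E ⊕ Fin h) :
    (v.sc s).eb l i = v.eb l i := by
  refine Finset.sum_congr rfl fun e _ => ?_
  have : (v.sc s).ν i (Sum.inl e) = v.ν i (Sum.inl e) * Ring.inverse (s : WittVector p K) := by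
    simp [LV.sc, Th, Matrix.mul_apply, Matrix.one_apply]
  rw [this, WittVector.mul_coeff_zero, coeff_inv_nat hs, mul_one]

omit [Fintype E] in
theorem LV.IsA.sc [Fintype E] (hv : v.IsA F) : (v.sc s).IsA F := fun i => by
  have h1 : Dop p K h ((v.sc s).a i) = s • Dop p K h (v.a i) := by
    rw [← map_nsmul, nsmul_eq_mul]
    rfl
  rw [h1]
  exact (F.WL 1).nsmul_mem (hv i) s

theorem LV.IsZ.sc (hs : s % p = 1) (hv : v.IsZ F) : (v.sc s).IsZ F where
  isA := hv.isA.sc
  lat := hv.lat
  inv := by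
    simp only [LV.sc, Matrix.mul_assoc]
    rw [← Matrix.mul_assoc v.μ, hv.inv, Matrix.one_mul, Th_inv' hs]
  hA := by
    rw [LV.mA_sc hs]
    exact hv.hA
  hB := by
    rw [LV.mB_sc hs]
    exact hv.hB
  b1 := by
    have e : -(v.sc s).a = fun i => (s : WittVector p K) * (-v.a) i := funext fun i => by
      simp [LV.sc]
    have := (Th_mem (E := E) (h := h) (nat_mem F s)).mul hv.b1
    rw [zero_add, ← Matrix.mul_assoc, Th_Ua, Matrix.mul_assoc] at this
    rw [e]
    exact this
  b2 := by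
    have := hv.b2.mul (Th_mem (E := E) (h := h) (inv_nat_mem F hs))
    rw [add_zero] at this
    convert this using 1
    simp only [LV.sc, Matrix.mul_assoc]
    congr 1
    have h1 := Th_Ua (h := h) s v.a
    calc _ = Th E h _ (Ring.inverse (s : WittVector p K)) *
          (Ua h (fun i => (s : WittVector p K) * v.a i) * (Th E h _ (s : WittVector p K) *
            Th E h _ (Ring.inverse (s : WittVector p K)))) := by rw [Th_inv' hs, Matrix.mul_one]
      _ = _ := by
        rw [← Matrix.mul_assoc (Ua h _), ← h1, ← Matrix.mul_assoc, ← Matrix.mul_assoc, Th_inv hs,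
          Matrix.one_mul]

theorem LV.IsJ.sc (hs : s % p = 1) {𝒰 : Set (Sbs p E)} (hv : v.IsJ F 𝒰) : (v.sc s).IsJ F 𝒰 where
  mem := hv.mem
  zero := hv.zero
  one U hU := by
    simp only [LV.eb_sc hs]
    exact hv.one U hU

theorem LV.Ok.sc (hs : s % p = 1) (hv : v.Ok F v') : (v.sc s).Ok F (v'.sc s) where
  a i := by
    have := (F.WL 1).nsmul_mem (hv.a i) s
    rwa [nsmul_eq_mul, mul_sub] at this
  lat h1 h2 := by
    simp only [LV.sc, Matrix.mul_assoc]
    rw [← Matrix.mul_assoc (Th E h _ _), Th_inv hs, Matrix.one_mul]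
    exact hv.lat h1 h2

theorem LV.sc_map {L : Type} [CommRing L] [Pf p L] (hs : s % p = 1) (f : K →+* L) :
    (v.map f).sc s = (v.sc s).map f := by
  refine LV.ext (funext fun i => ?_) rfl ?_ ?_ rfl rfl
  · simp [LV.sc, LV.map]
  · simp only [LV.sc, LV.map, Matrix.map_mul, Th_map, map_natCast]
  · simp only [LV.sc, LV.map, Matrix.map_mul, Th_map, map_inv_nat hs]

theorem LV.sc_one : v.sc 1 = v := by
  refine LV.ext (funext fun i => ?_) rfl ?_ ?_ rfl rfl <;> simp [LV.sc, Th_one]

theorem LV.sc_mul {t : ℕ} (hs : s % p = 1) (ht : t % p = 1) : v.sc (s * t) = (v.sc s).sc t := by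
  refine LV.ext (funext fun i => ?_) rfl ?_ ?_ rfl rfl
  · simp only [LV.sc, Nat.cast_mul]
    ring
  · simp only [LV.sc, Nat.cast_mul, ← Matrix.mul_assoc, Th_mul, mul_comm]
  · simp only [LV.sc, Nat.cast_mul, Matrix.mul_assoc, Th_mul]
    rw [Ring.mul_inverse_rev' (Commute.all _ _), mul_comm]

/-- the action of a natural number; the identity unless the number is one modulo `p` -/
def LV.sc' (s : ℕ) (v : LV p E h K) : LV p E h K := if s % p = 1 then v.sc s else v

omit [Pf p K] in
theorem LV.sc'_eq (hs : s % p = 1) : v.sc' s = v.sc s := if_pos hs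

omit [Pf p K] in
theorem LV.sc'_ne (hs : ¬s % p = 1) : v.sc' s = v := if_neg hs

theorem LV.sc'_map {L : Type} [CommRing L] [Pf p L] (f : K →+* L) :
    (v.map f).sc' s = (v.sc' s).map f := by
  by_cases hs : s % p = 1
  · rw [LV.sc'_eq hs, LV.sc'_eq hs, LV.sc_map hs]
  · rw [LV.sc'_ne hs, LV.sc'_ne hs]

theorem LV.Ok.sc' (hv : v.Ok F v') : (v.sc' s).Ok F (v'.sc' s) := by
  by_cases hs : s % p = 1
  · rw [LV.sc'_eq hs, LV.sc'_eq hs]
    exact hv.sc hs
  · rwa [LV.sc'_ne hs, LV.sc'_ne hs]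

theorem LV.sc'_one : v.sc' 1 = v := by
  rw [LV.sc'_eq (Nat.mod_eq_of_lt one_lt_p), LV.sc_one]

theorem LV.sc'_mul {t : ℕ} (hs : s % p = 1) (ht : t % p = 1) :
    v.sc' (s * t) = (v.sc' s).sc' t := by
  rw [LV.sc'_eq hs, LV.sc'_eq ht, LV.sc'_eq (by
    rw [Nat.mul_mod, hs, ht, one_mul, Nat.mod_eq_of_lt one_lt_p]), LV.sc_mul hs ht]

theorem LV.sc'_ind {Q : LV p E h K → Prop} (h1 : s % p = 1 → Q (v.sc s)) (h2 : Q v) :
    Q (v.sc' s) := by
  by_cases hs : s % p = 1
  · rw [LV.sc'_eq hs]
    exact h1 hs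
  · rwa [LV.sc'_ne hs]

end lv

variable (p k E h) in
/-- the operators on the system of lattices -/
def lact (X : PF p k) : (LS p k E h X).Act where
  e s :=
    { f := fun v => LV.sc' s v
      map := fun φ _ => LV.sc'_map φ.r
      ok1 := fun _ => trivial
      ok2 := fun hv => LV.Ok.sc' hv }
  one _ _ := LV.sc'_one
  mul _ _ hs ht _ _ := LV.sc'_mul hs ht

theorem stab_of_sc {X : PF p k} {c : Col (LVF p k E h)}
    (hc : ∀ s, s % p = 1 → ∀ (T : FP p k) (v : LV p E h T.K), c.P v → c.P (v.sc s)) :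
    (lact p k E h X).Stab c := fun s T v hv =>
  LV.sc'_ind (Q := fun v : LV p E h T.K => c.P (T := T) v) (fun hs => hc s hs T v hv) hv

theorem stab_cA (X : PF p k) : (lact p k E h X).Stab (cA p k E h) :=
  stab_of_sc fun s _ T v ⟨h1, h2, h3, h4, h5, h6⟩ => ⟨h1.sc, h2, by
    show Th E h _ _ * v.μ = 0
    rw [h3, Matrix.mul_zero], by
    show v.ν * Th E h _ _ = 0
    rw [h4, Matrix.zero_mul], h5, h6⟩

theorem stab_cJ (X : PF p k) (𝒰 : Set (Sbs p E)) : (lact p k E h X).Stab (cJ k h 𝒰) :=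
  stab_of_sc fun _ hs _ _ ⟨h1, h2, h3⟩ => ⟨h1.sc hs, h2.sc hs, h3⟩

end P261
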