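import Vale.Agent.P261Z.L.Pow

/-!
# P261Z, block L: the fixed vectors of a lattice
-/

noncomputable section

open Matrix

namespace P261

variable {p : ℕ} [hp : Fact p.Prime]

namespace Fv

/-- An additive recurrence: the sums of the powers lie in the ideal. -/
theorem rec_mem {K E : Type} [CommRing K] [Ch p K] [DecidableEq E] (C : Subring K) (I : Ideal C)
    (m : E → K) (S : Finset E) : ∀ c : E → C, (∀ e, c e ∈ I) → ∀ s : ℕ → C,
      (∀ k, (s k : K) = ∑ e ∈ S, (c e : K) ^ p ^ k * m e) → s S.card ∈ I := by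
  induction S using Finset.induction with
  | empty =>
    intro c _ s hs
    have : s 0 = 0 := Subtype.ext (by simpa using hs 0)
    simp [this]
  | insert a S ha ih =>
    intro c hc s hs
    obtain ⟨d, hd⟩ : ∃ d, p = d + 2 := ⟨p - 2, (Nat.sub_add_cancel hp.out.two_le).symm⟩
    have h1 := ih (fun e => c e ^ p - c a ^ (d + 1) * c e)
      (fun e => I.sub_mem (I.pow_mem_of_mem (hc e) p p_pos) (I.mul_mem_left _ (hc e)))
      (fun k => s (k + 1) - (c a ^ (d + 1)) ^ p ^ k * s k) (fun k => by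
        have e1 : (c a : K) ^ p ^ (k + 1) = ((c a : K) ^ (d + 1)) ^ p ^ k * (c a : K) ^ p ^ k := by
          rw [← mul_pow, ← pow_succ, pow_succ' p, pow_mul]
          congr 2
        push_cast
        rw [hs, hs, Finset.sum_insert ha, Finset.sum_insert ha, mul_add, ← mul_assoc, ← e1,
          add_sub_add_left_eq_sub, Finset.mul_sum, ← Finset.sum_sub_distrib]
        refine Finset.sum_congr rfl fun e _ => ?_
        rw [sub_pow_pp, mul_pow, ← pow_mul (c e : K), ← pow_succ']
        ring)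
    rw [Finset.card_insert_of_notMem ha]
    have h2 := I.add_mem h1 (I.mul_mem_right (s S.card) (I.pow_mem_of_mem
      (I.pow_mem_of_mem (hc a) (d + 1) d.succ_pos) (p ^ S.card) (pow_pos p_pos _)))
    simpa using h2

variable {E : Type} [Fintype E] [DecidableEq E] {h : ℕ} {K : Type} [CommRing K]

omit hp in
theorem V0_inl (A : Type) [CommRing A] (N : ℕ) (i : E ⊕ Fin h) (e : E) :
    (V0 p E h A ^ N) i (Sum.inl e) = (1 : Matrix (E ⊕ Fin h) (E ⊕ Fin h) A) i (Sum.inl e) := by
  rw [V0, fromBlocks_diagonal_pow, one_pow]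
  rcases i with i | i <;> simp [Matrix.one_apply]

omit hp in
theorem mul_V0_inl {A : Type} [CommRing A] (M : Matrix (E ⊕ Fin h) (E ⊕ Fin h) A) (N : ℕ)
    (i : E ⊕ Fin h) (e : E) : (M * V0 p E h A ^ N) i (Sum.inl e) = M i (Sum.inl e) := by
  conv_rhs => rw [← Matrix.mul_one M]
  simp only [Matrix.mul_apply, V0_inl]

omit hp in
theorem V0_pow [Ch p K] {N : ℕ} (hN : h ≤ N) : V0 p E h K ^ N = fromBlocks 1 0 0 0 := by
  rw [V0, fromBlocks_diagonal_pow, one_pow]
  congr 1
  have key : ∀ (N : ℕ) (i j : Fin h), (i : ℕ) < j + N → ((Matrix.of fun i j : Fin h =>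
      if (i : ℕ) = j + 1 then (1 : K) else
        if (i : ℕ) = 0 ∧ (j : ℕ) + 1 = h then (p : K) else 0) ^ N) i j = 0 := by
    intro N
    induction N with
    | zero =>
      intro i j hij
      rw [pow_zero, Matrix.one_apply_ne]
      rintro rfl
      omega
    | succ N ih =>
      intro i j hij
      rw [pow_succ, Matrix.mul_apply]
      refine Finset.sum_eq_zero fun l _ => ?_
      by_cases hl : (l : ℕ) = j + 1
      · rw [ih i l (by omega), zero_mul]
      · simp [hl, Ch.char]
  ext i j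
  exact key N i j (by have := i.2; omega)

variable [Pf p K] {v : LV p E h K}

theorem twPow_eq (hv : v.μ * v.ν = 1) (N : ℕ) :
    twPow v.mA N = v.ν * V0 p E h _ ^ N * v.μ.map (si p K ^ N) := by
  induction N with
  | zero =>
    rw [pow_zero, pow_zero, Matrix.mul_one]
    exact (mul_eq_one_comm.1 hv).symm
  | succ N ih =>
    have h1 : v.μ.map (si p K) * v.ν.map (si p K) = 1 := by
      rw [← Matrix.map_mul, hv, Matrix.map_one _ (map_zero _) (map_one _)]
    have h2 : (V0 p E h (WittVector p K) ^ N).map (si p K) = V0 p E h _ ^ N := by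
      rw [← RingHom.mapMatrix_apply, map_pow, RingHom.mapMatrix_apply, V0_map]
    have h3 : (v.μ.map (si p K ^ N)).map (si p K) = v.μ.map (si p K ^ (N + 1)) := by
      rw [pow_succ']
      rfl
    rw [twPow, ih, Matrix.map_mul, Matrix.map_mul, h2, h3, LV.mA, pow_succ' (V0 p E h _)]
    simp only [Matrix.mul_assoc]
    rw [← Matrix.mul_assoc (v.μ.map _), h1, Matrix.one_mul]

theorem fix (hv : v.μ * v.ν = 1) (N : ℕ) (i : E ⊕ Fin h) (e : E) :
    v.ν i (Sum.inl e) = ∑ j, twPow v.mA N i j * (si p K ^ N) (v.ν j (Sum.inl e)) := by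
  have h1 : v.μ.map (si p K ^ N) * v.ν.map (si p K ^ N) = 1 := by
    rw [← Matrix.map_mul, hv, Matrix.map_one _ (map_zero _) (map_one _)]
  have h2 : twPow v.mA N * v.ν.map (si p K ^ N) = v.ν * V0 p E h _ ^ N := by
    rw [twPow_eq hv, Matrix.mul_assoc, h1, Matrix.mul_one]
  rw [← mul_V0_inl (p := p) v.ν N, ← h2]
  rfl

theorem coeff_twPow (hv : v.μ * v.ν = 1) {N : ℕ} (hN : h ≤ N) (i j : E ⊕ Fin h) :
    (twPow v.mA N i j).coeff 0 =
      ∑ e, (v.ν i (Sum.inl e)).coeff 0 * (rt p K ^ N) ((v.μ (Sum.inl e) j).coeff 0) := by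
  have h1 : (twPow v.mA N).map WittVector.constantCoeff =
      v.ν.map WittVector.constantCoeff * fromBlocks 1 0 0 0 *
        (v.μ.map (si p K ^ N)).map WittVector.constantCoeff := by
    rw [twPow_eq hv, Matrix.map_mul, Matrix.map_mul, ← V0_pow (p := p) hN,
      ← RingHom.mapMatrix_apply _ (_ ^ N), map_pow, RingHom.mapMatrix_apply, V0_map]
  have h2 := congrFun (congrFun h1 i) j
  simpa [Matrix.mul_apply, Matrix.one_apply, Fintype.sum_sum_type, coeff_si_pow,
    -RingHom.coe_pow] using h2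

omit [Pf p K] in
theorem eb_single (e : E) (i : E ⊕ Fin h) :
    v.eb (Pi.single e 1) i = (v.ν i (Sum.inl e)).coeff 0 := by
  rw [LV.eb, Finset.sum_eq_single e]
  · rw [Pi.single_eq_same, ZMod.val_one, Nat.cast_one, one_mul]
  · intro b _ hb
    rw [Pi.single_eq_of_ne hb, ZMod.val_zero, Nat.cast_zero, zero_mul]
  · simp

theorem rt_pow_mem {C : Subring K} (hC : ∀ x ∈ C, rt p K x ∈ C) (N : ℕ) :
    ∀ x ∈ C, (rt p K ^ N) x ∈ C := by
  induction N with
  | zero => exact fun x hx => hx
  | succ N ih => exact fun x hx => by rw [pow_succ]; exact ih _ (hC x hx)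

theorem twPow_mem {C : Subring K} (hC : ∀ x ∈ C, rt p K x ∈ C) {J : Type} [Fintype J]
    [DecidableEq J] {A : Matrix J J (WittVector p K)} (hA : ∀ i j, (A i j).coeff 0 ∈ C) (N : ℕ) :
    ∀ i j, (twPow A N i j).coeff 0 ∈ C := by
  induction N with
  | zero =>
    intro i j
    change WittVector.constantCoeff ((1 : Matrix J J (WittVector p K)) i j) ∈ C
    rw [Matrix.one_apply, apply_ite WittVector.constantCoeff, map_one, map_zero]
    split_ifs
    exacts [one_mem _, zero_mem _]
  | succ N ih =>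
    intro i j
    change WittVector.constantCoeff (∑ l, A i l * si p K (twPow A N l j)) ∈ C
    rw [map_sum]
    exact C.sum_mem fun l _ => by rw [map_mul]; exact mul_mem (hA i l) (hC _ (ih l j))

end Fv

open Fv

theorem eps : EPS p := by
  intro E _ _ h K _ _ F v hF hv
  have h0 : ∀ i e, v.ν i (Sum.inl e) ∈ F.WL 3 := fun i e => by
    have := hv.b2 i (Sum.inl e)
    simpa [Matrix.mul_apply, Ua, Fintype.sum_sum_type, Matrix.one_apply] using this
  have h1 : ∀ N : ℕ, ∀ i e, v.ν i (Sum.inl e) ∈ F.WL (3 / p ^ N) := by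
    intro N
    induction N with
    | zero => simpa using h0
    | succ N ih =>
      intro i e
      rw [fix hv.inv 1 i e]
      refine sum_mem fun j _ => Fil.WS_mul_zero ?_ ?_
      · simpa [twPow] using hv.hA i j
      · rw [pow_one, pow_succ, ← div_div]
        exact Fil.WS_si (ih j e)
  have h2 : ∀ i e, v.ν i (Sum.inl e) ∈ F.WL 0 := fun i e =>
    Fil.mem_WL'.2 fun J => hF.WT fun ε hε => by
      obtain ⟨N, hN⟩ := pow_unbounded_of_one_lt (3 / ε)
        (show (1 : ℝ) < p by linarith [two_le_p (p := p)])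
      refine Fil.WT_le (Fil.mem_WL'.1 (h1 N i e) J) le_rfl ?_
      rw [zero_add, div_le_iff₀ (pow_pos p_pos' N), mul_comm]
      exact ((div_lt_iff₀ hε).1 hN).le
  refine ⟨h2, fun l i => sum_mem fun e _ => ?_⟩
  have h3 := Fil.mem_WL.1 (h2 i e) 0
  rw [mul_zero] at h3
  exact F.zero.mul_mem (natCast_mem F.zero _) h3

theorem fv : FV p := by
  intro E _ _ h K _ _ C v _ hC hv hA he I hI
  have hν : ∀ i e, (v.ν i (Sum.inl e)).coeff 0 ∈ C := fun i e => eb_single (v := v) e i ▸ he _ i
  have hT := twPow_mem hC hA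
  constructor
  · intro h1
    refine ⟨h + Fintype.card E, fun i j => ⟨⟨_, hT _ i j⟩, ?_, rfl⟩⟩
    refine hI ⟨p ^ (h + Fintype.card E), ?_⟩
    refine rec_mem (p := p) C I (fun e => (v.μ (Sum.inl e) j).coeff 0) Finset.univ
      (fun e => ⟨_, hν i e⟩ ^ p ^ h) (fun e => I.pow_mem_of_mem ?_ _ (pow_pos p_pos _))
      (fun k => ⟨_, hT (h + k) i j⟩ ^ p ^ (h + k)) fun k => ?_
    · obtain ⟨y, hy, e1⟩ := h1 (Pi.single e 1) i
      rw [eb_single] at e1
      exact (Subtype.ext e1 : y = ⟨_, hν i e⟩) ▸ hy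
    · push_cast
      rw [coeff_twPow hv (Nat.le_add_right h k), sum_pow_pp]
      refine Finset.sum_congr rfl fun e _ => ?_
      rw [mul_pow, rt_pow_pp, ← pow_mul, ← pow_add]
  · rintro ⟨N, hN⟩ l i
    choose y hy e1 using hN
    refine ⟨∑ e, ((l e).val : C) * ∑ j, y i j * ⟨_, rt_pow_mem hC N _ (hν j e)⟩,
      I.sum_mem fun e _ => I.mul_mem_left _ (I.sum_mem fun j _ => I.mul_mem_right _ (hy i j)), ?_⟩
    push_cast
    refine Finset.sum_congr rfl fun e _ => ?_
    congr 1
    have h2 := congrArg WittVector.constantCoeff (fix hv N i e)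
    rw [map_sum] at h2
    refine Eq.trans (Finset.sum_congr rfl fun j _ => ?_) h2.symm
    rw [map_mul, e1, WittVector.constantCoeff_apply, WittVector.constantCoeff_apply, coeff_si_pow,
      RingHom.coe_pow]

end P261
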