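import Vale.Agent.P261Z.L.Defs

/-!
# P261Z, block L: the matrix of `V ^ N` and the statement on fixed vectors
-/

noncomputable section

open Matrix

namespace P261

variable {p : ℕ} [hp : Fact p.Prime]

/-- the matrix of `V ^ N` when `V v = A * σ⁻¹ v` -/
def twPow {K I : Type} [CommRing K] [Pf p K] [Fintype I] [DecidableEq I]
    (A : Matrix I I (WittVector p K)) : ℕ → Matrix I I (WittVector p K)
  | 0 => 1
  | N + 1 => A * (twPow A N).map (si p K)

variable (p) in
/-- The vectors `ε` are integral in every lattice. -/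
def EPS : Prop := ∀ (E : Type) [Fintype E] [DecidableEq E] (h : ℕ) (K : Type) [CommRing K] [Pf p K]
  (F : Fil p K) (v : LV p E h K), F.Closed → v.IsZ F →
    (∀ i e, v.ν i (Sum.inl e) ∈ F.WL 0) ∧ ∀ l i, v.eb l i ∈ F.F 0

variable (p) in
/-- The fixed vectors vanish modulo `p` and a radical ideal `I` of a subring `C` over which the
matrix of `V` is defined if and only if `V` is nilpotent modulo `p` and `I`. -/
def FV : Prop := ∀ (E : Type) [Fintype E] [DecidableEq E] (h : ℕ) (K : Type) [CommRing K] [Pf p K]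
  (C : Subring K) (v : LV p E h K), 1 ≤ h → (∀ x ∈ C, rt p K x ∈ C) → v.μ * v.ν = 1 →
  (∀ i j, (v.mA i j).coeff 0 ∈ C) → (∀ l i, v.eb l i ∈ C) → ∀ I : Ideal C, I.IsRadical →
    ((∀ l i, ∃ y ∈ I, (y : K) = v.eb l i) ↔
      ∃ N, ∀ i j, ∃ y ∈ I, (y : K) = (twPow v.mA N i j).coeff 0)

end P261
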